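import Vale.Agent.Lib.P052.FinalFin

set_option autoImplicit false

/-!
# P052 (Borsuk's partition problem): `b(Y) ≥ d + 2` for a finite set `Y ⊂ ℝ^d`, for every `d ≥ 63`
-/

namespace Vale.Agent.Results.P052.BorsukNumber

/-- `Y` is the union of `k` subsets, each of diameter strictly smaller than the diameter of `Y`. -/
def SplitsInto {d : ℕ} (Y : Set (EuclideanSpace ℝ (Fin d))) (k : ℕ) : Prop :=
  ∃ A : Fin k → Set (EuclideanSpace ℝ (Fin d)),
    (∀ i, A i ⊆ Y ∧ Metric.diam (A i) < Metric.diam Y) ∧ ∀ y ∈ Y, ∃ i, y ∈ A i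

/-- `b(Y)`: the least `k` such that `Y` is the union of `k` subsets of smaller diameter. -/
noncomputable def b {d : ℕ} (Y : Set (EuclideanSpace ℝ (Fin d))) : ℕ := sInf {k | SplitsInto Y k}

/-- Borsuk's conjecture in dimension `d`: every bounded set of positive diameter in `ℝ^d` is the
union of `d + 1` subsets of smaller diameter. -/
def BorsukConjecture (d : ℕ) : Prop :=
  ∀ Y : Set (EuclideanSpace ℝ (Fin d)), Bornology.IsBounded Y → 0 < Metric.diam Y →
    SplitsInto Y (d + 1)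

/-- the least dimension in which Borsuk's conjecture fails -/
noncomputable def dStar : ℕ := sInf {d | ¬ BorsukConjecture d}

theorem mono {d : ℕ} {Y : Set (EuclideanSpace ℝ (Fin d))} (hY : 0 < Metric.diam Y) {k l : ℕ}
    (hkl : k ≤ l) (h : SplitsInto Y k) : SplitsInto Y l := by
  obtain ⟨A, hA, hc⟩ := h
  refine ⟨fun i => if hi : i.val < k then A ⟨i, hi⟩ else ∅, fun i => ?_, fun y hy => ?_⟩
  · by_cases hi : i.val < k
    · simp only [hi, dif_pos]
      exact hA _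
    · simp only [hi, dif_neg, not_false_eq_true]
      exact ⟨Set.empty_subset _, by rw [Metric.diam_empty]; exact hY⟩
  · obtain ⟨i, hi⟩ := hc y hy
    refine ⟨⟨i, i.isLt.trans_le hkl⟩, ?_⟩
    simp only [i.isLt, dif_pos]
    exact hi

theorem splits_of_finite {d : ℕ} {Y : Set (EuclideanSpace ℝ (Fin d))} (hf : Y.Finite)
    (hY : 0 < Metric.diam Y) : ∃ k, SplitsInto Y k := by
  obtain ⟨n, f, hfr⟩ : ∃ (n : ℕ) (f : Fin n → EuclideanSpace ℝ (Fin d)), Set.range f = Y := by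
    have := hf.to_subtype
    obtain ⟨n, ⟨g⟩⟩ := Finite.exists_equiv_fin Y
    refine ⟨n, fun i => (g.symm i : EuclideanSpace ℝ (Fin d)), ?_⟩
    ext y
    constructor
    · rintro ⟨i, rfl⟩
      exact (g.symm i).2
    · intro hy
      exact ⟨g ⟨y, hy⟩, by simp⟩
  refine ⟨n, fun i => {f i}, fun i => ⟨?_, ?_⟩, fun y hy => ?_⟩
  · rw [Set.singleton_subset_iff, ← hfr]
    exact ⟨i, rfl⟩
  · rw [Metric.diam_singleton]
    exact hY
  · rw [← hfr] at hy
    obtain ⟨i, rfl⟩ := hy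
    exact ⟨i, rfl⟩

theorem main (d : ℕ) (hd : 63 ≤ d) : ∃ Y : Set (EuclideanSpace ℝ (Fin d)),
    Y.Finite ∧ 0 < Metric.diam Y ∧ ¬ SplitsInto Y (d + 1) := by
  have h : ∃ Y : Set (EuclideanSpace ℝ (Fin d)), Y.Finite ∧ 0 < Metric.diam Y ∧
      ¬ ∃ P : Fin (d + 1) → Set (EuclideanSpace ℝ (Fin d)),
        Y = ⋃ i, P i ∧ ∀ i, Metric.diam (P i) < Metric.diam Y := by
    rcases Nat.eq_or_lt_of_le hd with h | h
    · subst h
      exact Vale.Agent.P052.dim63Fin
    · obtain ⟨m, rfl⟩ := Nat.exists_eq_add_of_le (show 64 ≤ d by omega)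
      exact Vale.Agent.P052.dim64Fin m
  obtain ⟨Y, h1, h2, h3⟩ := h
  refine ⟨Y, h1, h2, ?_⟩
  rintro ⟨A, hA, hc⟩
  refine h3 ⟨A, ?_, fun i => (hA i).2⟩
  ext y
  rw [Set.mem_iUnion]
  constructor
  · intro hy
    exact hc y hy
  · rintro ⟨i, hi⟩
    exact (hA i).1 hi

theorem b_gt {d : ℕ} {Y : Set (EuclideanSpace ℝ (Fin d))} (hf : Y.Finite)
    (hY : 0 < Metric.diam Y) {k : ℕ} (h : ¬ SplitsInto Y k) : k + 1 ≤ b Y := by
  have h1 : SplitsInto Y (b Y) := Nat.sInf_mem (splits_of_finite hf hY)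
  by_contra hc
  exact h (mono hY (by omega) h1)

/-- For every `d ≥ 63` Borsuk's conjecture is false in dimension `d`; a counterexample is a finite
set `Y ⊂ ℝ^d` with `b(Y) ≥ d + 2`; the least dimension in which the conjecture fails is at most
`63`. -/
theorem result :
    (∀ d : ℕ, 63 ≤ d → ¬ BorsukConjecture d) ∧
    (∀ d : ℕ, 63 ≤ d → ∃ Y : Finset (EuclideanSpace ℝ (Fin d)),
      2 ≤ Y.card ∧ d + 2 ≤ b (Y : Set (EuclideanSpace ℝ (Fin d)))) ∧
    ¬ BorsukConjecture dStar ∧ dStar ≤ 63 := by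
  have h1 : ∀ d : ℕ, 63 ≤ d → ¬ BorsukConjecture d := by
    intro d hd hB
    obtain ⟨Y, hf, hY, hn⟩ := main d hd
    exact hn (hB Y hf.isBounded hY)
  refine ⟨h1, ?_, ?_, ?_⟩
  · intro d hd
    obtain ⟨Y, hf, hY, hn⟩ := main d hd
    refine ⟨hf.toFinset, ?_, ?_⟩
    · by_contra hc
      have h2 : hf.toFinset.card ≤ 1 := by omega
      rw [Finset.card_le_one] at h2
      have h3 : Y.Subsingleton := fun x hx y hy =>
        h2 x (hf.mem_toFinset.2 hx) y (hf.mem_toFinset.2 hy)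
      rw [Metric.diam_subsingleton h3] at hY
      exact lt_irrefl _ hY
    · rw [Set.Finite.coe_toFinset]
      exact b_gt hf hY hn
  · have h2 : ({d | ¬ BorsukConjecture d} : Set ℕ).Nonempty := ⟨63, h1 63 le_rfl⟩
    exact Nat.sInf_mem h2
  · have h2 : 63 ∈ ({d | ¬ BorsukConjecture d} : Set ℕ) := h1 63 le_rfl
    exact Nat.sInf_le h2

end Vale.Agent.Results.P052.BorsukNumber
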