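import Vale.Agent.Lib.P052.Final

set_option autoImplicit false

namespace Vale.Agent.Results.P052.Dim63

/-- Borsuk's conjecture is false in dimension 63 and in every larger dimension: for every `d ≥ 63`
there is a bounded set `Y` in `ℝ^d` of positive diameter that is not the union of `d + 1` sets of
diameter smaller than that of `Y`. -/
theorem result : ∀ d : ℕ, 63 ≤ d →
    ∃ Y : Set (EuclideanSpace ℝ (Fin d)),
      Bornology.IsBounded Y ∧ 0 < Metric.diam Y ∧
        ¬ ∃ P : Fin (d + 1) → Set (EuclideanSpace ℝ (Fin d)),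
            Y = ⋃ i, P i ∧ ∀ i, Metric.diam (P i) < Metric.diam Y := by
  intro d hd
  rcases Nat.eq_or_lt_of_le hd with h | h
  · subst h
    exact Vale.Agent.P052.dim63
  · obtain ⟨m, rfl⟩ := Nat.exists_eq_add_of_le (show 64 ≤ d by omega)
    exact Vale.Agent.P052.dim64 m

end Vale.Agent.Results.P052.Dim63
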